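import Vale.Agent.P284.H451.KLS

/-!
# P284 (helper573): Hilbert space valued holomorphic multi-forms on a covering

`v y e ξ` is the value at `y : E` of a holomorphic section of `(Λ^R T^*)^m ⊗ H` on the `R` vectors
`ξ 0, …, ξ (R-1)` of `T_{p y} X`, written in the chart `e` of `X`.
-/

open scoped Manifold ContDiff Topology
open Filter

noncomputable section

namespace Vale.Agent.P284.H573

open Vale.Agent.P272.K

/-- `v` is a holomorphic, Hilbert space valued form of type `(Λ^R T^*)^m` on the covering `p : E → X`,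
whose norm only depends on the point of `X`. -/
structure HForm (n R m : ℕ) {X E : Type} [TopologicalSpace X] [ChartedSpace (Cm n) X]
    [TopologicalSpace E] (p : E → X) (H : Type) [NormedAddCommGroup H] [InnerProductSpace ℂ H]
    (v : E → Chart n X → (Fin R → Cm n) → H) : Prop where
  hol : ∀ y e, At e (p y) → ∃ F : Cm n × (Fin R → Cm n) → H,
    (∀ ξ, AnalyticAt ℂ F (e (p y), ξ)) ∧ ∀ᶠ y' in 𝓝 y, ∀ ξ, v y' e ξ = F (e (p y'), ξ)
  change : ∀ y e e', At e (p y) → At e' (p y) → ∀ ξ, v y e ξ =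
    v y e' (fun i => fderiv ℂ (fun z => e' (e.symm z)) (e (p y)) (ξ i))
  det : ∀ y e, At e (p y) → ∀ (A : Matrix (Fin R) (Fin R) ℂ) (ξ : Fin R → Cm n),
    v y e (fun i => ∑ j, A i j • ξ j) = A.det ^ m • v y e ξ
  inv : ∀ y y₁ e, At e (p y) → p y = p y₁ → ∀ ξ, ‖v y e ξ‖ = ‖v y₁ e ξ‖

/-- `γ : ℂᴿ → H` is nonzero at `b` and its projectivisation is an immersion there. -/
def ImmAt {R : ℕ} {H : Type} [NormedAddCommGroup H] [InnerProductSpace ℂ H]
    (γ : Cm R → H) (b : Cm R) : Prop :=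
  γ b ≠ 0 ∧ ∀ (η : Cm R) (c : ℂ), fderiv ℂ γ b η = c • γ b → η = 0

/-- `v` has the normal form `v = (det (db ξ))^m γ(b)` near `y₀`, where `b` is a submersion to `ℂᴿ` and
`γ` is projectively immersive. -/
structure IsNF {n R : ℕ} (m : ℕ) {X E : Type} [TopologicalSpace X] [ChartedSpace (Cm n) X]
    [TopologicalSpace E] (p : E → X) {H : Type} [NormedAddCommGroup H] [InnerProductSpace ℂ H]
    (v : E → Chart n X → (Fin R → Cm n) → H) (y₀ : E) (e : Chart n X) (b : Cm n → Cm R)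
    (γ : Cm R → H) : Prop where
  mem : At e (p y₀)
  ban : AnalyticAt ℂ b (e (p y₀))
  bsurj : Function.Surjective (fderiv ℂ b (e (p y₀)))
  γan : AnalyticAt ℂ γ (b (e (p y₀)))
  imm : ImmAt γ (b (e (p y₀)))
  nf : ∀ᶠ y in 𝓝 y₀, ∀ ξ : Fin R → Cm n, v y e ξ =
    (Matrix.of fun i j => fderiv ℂ b (e (p y)) (ξ j) i).det ^ m • γ (b (e (p y)))

/-- `y₀` is a good point of `v`. -/
def GoodAt {n : ℕ} {X E : Type} [TopologicalSpace X] [ChartedSpace (Cm n) X] [TopologicalSpace E]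
    (p : E → X) (R m : ℕ) {H : Type} [NormedAddCommGroup H] [InnerProductSpace ℂ H]
    (v : E → Chart n X → (Fin R → Cm n) → H) (y₀ : E) : Prop :=
  ∃ (e : Chart n X) (b : Cm n → Cm R) (γ : Cm R → H), IsNF m p v y₀ e b γ

end Vale.Agent.P284.H573
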