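import Vale.Agent.P284.H573.HCalc
import Mathlib.Analysis.Normed.Module.FiniteDimension
import Mathlib.Analysis.Normed.Ring.Units
import Mathlib.Analysis.Normed.Operator.Mul

/-!
# P284 (helper573): normal forms of `HForm`s

Openness of good points; the weight `NZ` and the pull-back in the normal form; the immersion property
and the first branch.
-/

open scoped Manifold ContDiff Topology
open Filter

noncomputable section

namespace Vale.Agent.P284.H573

open Vale.Agent.P272.K Vale.Agent.P284.H812 Vale.Agent.P284.H451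

section imm

variable {R : ℕ} {H : Type} [NormedAddCommGroup H] [InnerProductSpace ℂ H]

/-- `(η, c) ↦ Dγ(b) η - c γ(b)` -/
def immL (γ : Cm R → H) (b : Cm R) : (Cm R × ℂ) →L[ℂ] H :=
  (fderiv ℂ γ b).comp (ContinuousLinearMap.fst ℂ (Cm R) ℂ) -
    (ContinuousLinearMap.toSpanSingletonLIE ℂ H (γ b)).comp (ContinuousLinearMap.snd ℂ (Cm R) ℂ)

lemma immL_apply (γ : Cm R → H) (b : Cm R) (u : Cm R × ℂ) :
    immL γ b u = fderiv ℂ γ b u.1 - u.2 • γ b := by
  simp [immL]

lemma immAt_iff {γ : Cm R → H} {b : Cm R} : ImmAt γ b ↔ Function.Injective (immL γ b) := by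
  rw [injective_iff_map_eq_zero]
  constructor
  · rintro ⟨h0, h⟩ ⟨η, c⟩ hu
    rw [immL_apply, sub_eq_zero] at hu
    have h1 : η = 0 := h η c hu
    subst h1
    simp only [map_zero] at hu
    have h2 : c = 0 := by
      rcases smul_eq_zero.1 hu.symm with h2 | h2
      · exact h2
      · exact absurd h2 h0
    rw [h2]
    rfl
  · intro h
    constructor
    · intro h0
      have := h (0, 1) (by rw [immL_apply]; simp [h0])
      simp at this
    · intro η c hη
      have := h (η, c) (by rw [immL_apply, hη, sub_self])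
      exact congrArg Prod.fst this

lemma immL_cont [CompleteSpace H] {γ : Cm R → H} {b : Cm R} (h : AnalyticAt ℂ γ b) : ContinuousAt (immL γ) b := by
  unfold immL
  refine ContinuousAt.sub ?_ ?_
  · exact ContinuousAt.clm_comp h.fderiv.continuousAt continuousAt_const
  · refine ContinuousAt.clm_comp ?_ continuousAt_const
    exact (ContinuousLinearMap.toSpanSingletonLIE ℂ H).continuous.continuousAt.comp
      h.continuousAt

lemma ImmAt.eventually [CompleteSpace H] {γ : Cm R → H} {b : Cm R} (h : AnalyticAt ℂ γ b) (hi : ImmAt γ b) :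
    ∀ᶠ b' in 𝓝 b, ImmAt γ b' := by
  have h1 : {L : (Cm R × ℂ) →L[ℂ] H | Function.Injective L} ∈ 𝓝 (immL γ b) :=
    ContinuousLinearMap.isOpen_injective.mem_nhds (immAt_iff.1 hi)
  filter_upwards [(immL_cont h).eventually_mem h1] with b' hb'
  exact immAt_iff.2 hb'

lemma surj_isOpen {n : ℕ} : IsOpen {L : Cm n →L[ℂ] Cm R | Function.Surjective L} := by
  rw [isOpen_iff_mem_nhds]
  intro L hL
  obtain ⟨S, hS⟩ := (L : Cm n →ₗ[ℂ] Cm R).exists_rightInverse_of_surjective
    (LinearMap.range_eq_top.2 hL)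
  set S' : Cm R →L[ℂ] Cm n := LinearMap.toContinuousLinearMap S with hS'
  have h1 : L.comp S' = 1 := by
    ext1 u
    exact LinearMap.congr_fun hS u
  have h2 : ContinuousAt (fun L' : Cm n →L[ℂ] Cm R => L'.comp S') L :=
    ContinuousAt.clm_comp continuousAt_id continuousAt_const
  have h3 : {A : Cm R →L[ℂ] Cm R | IsUnit A} ∈ 𝓝 (L.comp S') := by
    refine Units.isOpen.mem_nhds ?_
    rw [h1]
    exact isUnit_one
  filter_upwards [h2.eventually_mem h3] with L' hL'
  intro u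
  obtain ⟨A, hA⟩ := hL'
  refine ⟨S' ((↑A⁻¹ : Cm R →L[ℂ] Cm R) u), ?_⟩
  have h4 : (L'.comp S') ((↑A⁻¹ : Cm R →L[ℂ] Cm R) u) = ((A * A⁻¹ : (Cm R →L[ℂ] Cm R)ˣ) :
      Cm R →L[ℂ] Cm R) u := by
    rw [Units.val_mul, hA]
    rfl
  rw [mul_inv_cancel] at h4
  exact h4

end imm

section nf

variable {n R m : ℕ} {X E : Type} [TopologicalSpace X] [ChartedSpace (Cm n) X]
  [TopologicalSpace E] {p : E → X} {H : Type} [NormedAddCommGroup H] [InnerProductSpace ℂ H]
  {v : E → Chart n X → (Fin R → Cm n) → H}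

/-- The points near a good point are good, with the same data. -/
lemma IsNF.eventually [CompleteSpace H] {y₀ : E} {e : Chart n X} {b : Cm n → Cm R} {γ : Cm R → H}
    (h : IsNF m p v y₀ e b γ) (hp : ContinuousAt p y₀) : ∀ᶠ y in 𝓝 y₀, IsNF m p v y e b γ := by
  have hpe : ContinuousAt (fun y => e (p y)) y₀ :=
    ContinuousAt.comp (g := e) (e.continuousAt h.mem.2) hp
  have hb : ContinuousAt (fun y => b (e (p y))) y₀ :=
    ContinuousAt.comp (g := b) (f := fun y => e (p y)) h.ban.continuousAt hpe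
  have h1 : ∀ᶠ y in 𝓝 y₀, p y ∈ e.source := hp.eventually_mem (e.open_source.mem_nhds h.mem.2)
  have h2 : ∀ᶠ y in 𝓝 y₀, AnalyticAt ℂ b (e (p y)) := hpe.eventually h.ban.eventually_analyticAt
  have h3 : ∀ᶠ y in 𝓝 y₀, Function.Surjective (fderiv ℂ b (e (p y))) := by
    have h4 : ContinuousAt (fun y => fderiv ℂ b (e (p y))) y₀ :=
      ContinuousAt.comp (g := fderiv ℂ b) (f := fun y => e (p y)) h.ban.fderiv.continuousAt hpe
    exact h4.eventually_mem (surj_isOpen.mem_nhds h.bsurj)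
  have h4 : ∀ᶠ y in 𝓝 y₀, AnalyticAt ℂ γ (b (e (p y))) := hb.eventually h.γan.eventually_analyticAt
  have h5 : ∀ᶠ y in 𝓝 y₀, ImmAt γ (b (e (p y))) := hb.eventually (h.imm.eventually h.γan)
  filter_upwards [h1, h2, h3, h4, h5, h.nf.eventually_nhds] with y a1 a2 a3 a4 a5 a6
  exact ⟨⟨h.mem.1, a1⟩, a2, a3, a4, a5, a6⟩

lemma det_comp {b : Cm n → Cm R} {g : Cm R → Cm n} {z : Cm R} (hb : AnalyticAt ℂ b (g z))
    (hg : AnalyticAt ℂ g z) :
    (Matrix.of fun i k => fderiv ℂ b (g z) (fderiv ℂ g z (Pi.single k 1)) i).det =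
      (fderiv ℂ (fun z' => b (g z')) z).det := by
  have h1 := fderiv_fun_comp (𝕜 := ℂ) (g := b) (f := g) z hb.differentiableAt
    hg.differentiableAt
  rw [h1, ContinuousLinearMap.det, ← LinearMap.det_toMatrix']
  rfl

omit [ChartedSpace (Cm n) X] [TopologicalSpace E] in
/-- the pull-back in the normal form -/
lemma pull_nf {e : Chart n X} {b : Cm n → Cm R} {γ : Cm R → H} {ψ : Cm R → E} {z : Cm R}
    (h : ∀ ξ : Fin R → Cm n, v (ψ z) e ξ =
      (Matrix.of fun i j => fderiv ℂ b (e (p (ψ z))) (ξ j) i).det ^ m • γ (b (e (p (ψ z)))))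
    (hb : AnalyticAt ℂ b (e (p (ψ z)))) (hg : AnalyticAt ℂ (fun z' => e (p (ψ z'))) z) :
    pull p v e ψ z = (fderiv ℂ (fun z' => b (e (p (ψ z')))) z).det ^ m • γ (b (e (p (ψ z)))) := by
  rw [pull, h, det_comp (g := fun z' => e (p (ψ z'))) hb hg]

lemma det_ne {L : Cm R →L[ℂ] Cm R} (h : Function.Bijective L) : L.det ≠ 0 := by
  have h1 := LinearEquiv.isUnit_det' (LinearEquiv.ofBijective (L : Cm R →ₗ[ℂ] Cm R) h)
  exact h1.ne_zero

lemma bij_of_det_ne {L : Cm R →L[ℂ] Cm R} (h : L.det ≠ 0) : Function.Bijective L := by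
  have h1 : IsUnit (L : Cm R →ₗ[ℂ] Cm R) :=
    (LinearMap.isUnit_iff_isUnit_det _).2 (isUnit_iff_ne_zero.2 h)
  exact (Module.End.isUnit_iff _).1 h1

lemma det_an {g : Cm R → Cm R} {z : Cm R} (hg : AnalyticAt ℂ g z) :
    AnalyticAt ℂ (fun z => (fderiv ℂ g z).det) z := by
  have h1 : (fun z => (fderiv ℂ g z).det) = fun z => ∑ σ : Equiv.Perm (Fin R),
      (Equiv.Perm.sign σ : ℂ) * ∏ i, fderiv ℂ g z (Pi.single i 1) (σ i) := by
    funext z
    rw [ContinuousLinearMap.det, ← LinearMap.det_toMatrix', Matrix.det_apply']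
    rfl
  rw [h1]
  refine Finset.analyticAt_fun_sum _ fun σ _ => analyticAt_const.mul ?_
  refine Finset.analyticAt_fun_prod _ fun i _ => ?_
  have h2 : AnalyticAt ℂ (fun z => fderiv ℂ g z (Pi.single i 1)) z :=
    (ContinuousLinearMap.apply ℂ (Cm R) (Pi.single i (1 : ℂ) : Cm R)).analyticAt _ |>.fun_comp
      hg.fderiv
  exact (ContinuousLinearMap.proj (R := ℂ) (φ := fun _ : Fin R => ℂ) (σ i)).analyticAt _
    |>.fun_comp h2

end nf

section sig

variable {n R m : ℕ} {X E : Type} [TopologicalSpace X] [ChartedSpace (Cm n) X]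
  [TopologicalSpace E] {p : E → X} {H : Type} [NormedAddCommGroup H] [InnerProductSpace ℂ H]
  {v : E → Chart n X → (Fin R → Cm n) → H}
  {Z : Type} [TopologicalSpace Z] [ChartedSpace (Cm R) Z]
  [IsManifold 𝓘(ℂ, Cm n) ω X] [IsManifold 𝓘(ℂ, Cm R) ω Z]

/-- The weight `NZ` in the normal form. -/
lemma NZ_nf (hv : HForm n R m p H v) (hpl : IsLocalHomeomorph p) (hp : Function.Surjective p)
    {j : Z → X} (hj : ContMDiff 𝓘(ℂ, Cm R) 𝓘(ℂ, Cm n) ω j) {c : Chart R Z} {x : Z}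
    (hx : At c x) {y₀ : E} (hy₀ : p y₀ = j x) {e : Chart n X} {b : Cm n → Cm R} {γ : Cm R → H}
    (h : IsNF m p v y₀ e b γ) : ∀ᶠ z in 𝓝 (c x), NZ v hp j c z =
      ‖(fderiv ℂ (fun z' => b (e (j (c.symm z')))) z).det ^ m • γ (b (e (j (c.symm z))))‖ ^ 2 := by
  have he : At e (j x) := hy₀ ▸ h.mem
  obtain ⟨φ, hφ, hφp⟩ := hpl y₀
  set ψ : Cm R → E := fun z => φ.symm (j (c.symm z)) with hψ
  have hx' : c.symm (c x) = x := hx.left_inv
  have hjx : j x ∈ φ.target := by
    rw [← hy₀, hφp]; exact φ.map_source hφ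
  have hc1 : ContinuousAt (fun z => j (c.symm z)) (c x) :=
    continuousAt_map (hj _) hx.mem_target
  have hψc : ContinuousAt ψ (c x) := by
    refine ContinuousAt.comp (g := φ.symm) (f := fun z => j (c.symm z)) ?_ hc1
    rw [hx']
    exact φ.continuousAt_symm hjx
  have hψx : ψ (c x) = y₀ := by
    show φ.symm (j (c.symm (c x))) = y₀
    rw [hx', ← hy₀, hφp]
    exact φ.left_inv hφ
  have hev : ∀ᶠ z in 𝓝 (c x), z ∈ c.target ∧ j (c.symm z) ∈ φ.target ∧
      At e (j (c.symm z)) := by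
    have h1 : ∀ᶠ z in 𝓝 (c x), j (c.symm z) ∈ φ.target :=
      hc1.eventually_mem (φ.open_target.mem_nhds (by simpa only [hx'] using hjx))
    have h2 : ∀ᶠ z in 𝓝 (c x), j (c.symm z) ∈ e.source :=
      hc1.eventually_mem (e.open_source.mem_nhds (by simpa only [hx'] using he.2))
    filter_upwards [hx.nhds_target, h1, h2] with z hz hz1 hz2
    exact ⟨hz, hz1, he.1, hz2⟩
  have hpψ : (fun z => p (ψ z)) =ᶠ[𝓝 (c x)] fun z => j (c.symm z) := by
    filter_upwards [hev] with z hz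
    rw [hψ, hφp]
    exact φ.right_inv hz.2.1
  have hnf : ∀ᶠ z in 𝓝 (c x), ∀ ξ : Fin R → Cm n, v (ψ z) e ξ =
    (Matrix.of fun i j => fderiv ℂ b (e (p (ψ z))) (ξ j) i).det ^ m • γ (b (e (p (ψ z)))) :=
    hψc.eventually (by rw [hψx]; exact h.nf)
  have hban : ∀ᶠ z in 𝓝 (c x), AnalyticAt ℂ b (e (j (c.symm z))) := by
    have h3 : ContinuousAt (fun z => e (j (c.symm z))) (c x) := by
      refine ContinuousAt.comp (g := e) (e.continuousAt ?_) hc1
      rw [hx']
      exact he.2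
    refine h3.eventually (p := fun w => AnalyticAt ℂ b w) ?_
    simp only [hx', ← hy₀]
    exact h.ban.eventually_analyticAt
  filter_upwards [hev, hpψ.eventuallyEq_nhds, hnf, hban] with z hz hz' hz2 hz3
  have hz0 : p (ψ z) = j (c.symm z) := hz'.eq_of_nhds
  rw [NZ_eq hv hp (hj _) hx.1 hz.1 (y := ψ z) hz0 hz.2.2, hz2, hz0]
  rw [det_comp (g := fun z' => e (j (c.symm z'))) hz3
    (analyticAt_map (hj _) hx.1 hz.1 hz.2.2)]

/-- The weight `N` of `Z` is nonzero at `x`, and the projectivised local map `[v]` is an immersion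
there. -/
def HImmPt (R : ℕ) {Z : Type} [TopologicalSpace Z] (H : Type)
    [NormedAddCommGroup H] [InnerProductSpace ℂ H] (N : Chart R Z → Cm R → ℝ) (c : Chart R Z)
    (z : Cm R) : Prop :=
  N c z ≠ 0 ∧ ∃ v : Cm R → H, AnalyticAt ℂ v z ∧ (∀ᶠ z' in 𝓝 z, N c z' = ‖v z'‖ ^ 2) ∧
    ∀ (ξ : Cm R) (a : ℂ), fderiv ℂ v z ξ = a • v z → ξ = 0

/-- `NZ` is immersive at a good point where `b ∘ e ∘ j` is a local coordinate system. -/
theorem himm_NZ (hv : HForm n R m p H v) (hpl : IsLocalHomeomorph p)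
    (hp : Function.Surjective p) {j : Z → X} (hj : ContMDiff 𝓘(ℂ, Cm R) 𝓘(ℂ, Cm n) ω j)
    {c : Chart R Z} {x : Z} (hx : At c x) {y₀ : E} (hy₀ : p y₀ = j x) {e : Chart n X}
    {b : Cm n → Cm R} {γ : Cm R → H} (h : IsNF m p v y₀ e b γ)
    (hb : Function.Bijective (fderiv ℂ (fun z => b (e (j (c.symm z)))) (c x))) :
    HImmPt R H (NZ v hp j) c (c x) := by
  have he : At e (j x) := hy₀ ▸ h.mem
  have hx' : c.symm (c x) = x := hx.left_inv
  set g : Cm R → Cm R := fun z => b (e (j (c.symm z))) with hg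
  have hga : AnalyticAt ℂ g (c x) := by
    refine AnalyticAt.fun_comp (g := b) (f := fun z => e (j (c.symm z))) ?_
      (analyticAt_map (hj _) hx.1 hx.mem_target (by rw [hx']; exact he))
    rw [hx', ← hy₀]
    exact h.ban
  have hgx : g (c x) = b (e (p y₀)) := by rw [hg, hy₀]; simp only [hx']
  have hdet : (fderiv ℂ g (c x)).det ≠ 0 := by
    intro h0
    exact det_ne hb h0
  have hnf := NZ_nf hv hpl hp hj hx hy₀ h
  set D : Cm R → ℂ := fun z => (fderiv ℂ g z).det ^ m with hD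
  have hDa : AnalyticAt ℂ D (c x) := (det_an hga).pow m
  have hγg : AnalyticAt ℂ (fun z => γ (g z)) (c x) :=
    AnalyticAt.fun_comp (g := γ) (f := g) (by rw [hgx]; exact h.γan) hga
  have hD0 : D (c x) ≠ 0 := pow_ne_zero _ hdet
  refine ⟨?_, fun z => D z • γ (g z), hDa.smul hγg, hnf, ?_⟩
  · rw [hnf.self_of_nhds]
    have h2 : γ (g (c x)) ≠ 0 := by rw [hgx]; exact h.imm.1
    have h3 : D (c x) • γ (g (c x)) ≠ 0 := smul_ne_zero hD0 h2
    exact pow_ne_zero _ (norm_ne_zero_iff.2 h3)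
  · intro ξ a ha
    have h4 : fderiv ℂ (fun z => D z • γ (g z)) (c x) ξ =
        D (c x) • fderiv ℂ γ (g (c x)) (fderiv ℂ g (c x) ξ) +
          fderiv ℂ D (c x) ξ • γ (g (c x)) := by
      have h5 := fderiv_fun_smul (𝕜 := ℂ) hDa.differentiableAt hγg.differentiableAt
      have h6 := fderiv_fun_comp (𝕜 := ℂ) (g := γ) (f := g) (c x)
        (by rw [hgx]; exact h.γan.differentiableAt) hga.differentiableAt
      rw [h5, h6]
      simp
    rw [h4] at ha
    have h7 : fderiv ℂ γ (b (e (p y₀))) (fderiv ℂ g (c x) ξ) =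
        ((D (c x))⁻¹ * (a * D (c x) - fderiv ℂ D (c x) ξ)) • γ (b (e (p y₀))) := by
      rw [← hgx, mul_smul, sub_smul, mul_smul, ← ha, add_sub_cancel_right, inv_smul_smul₀ hD0]
    have h8 := h.imm.2 _ _ h7
    exact hb.1 (by rw [h8, map_zero])

end sig

end Vale.Agent.P284.H573
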