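import Vale.Agent.P284.H573.HSig
import Vale.Agent.P284.H221.SigS

/-!
# P284 (helper573): the statements L1 and L2 of module SIG
-/

open scoped Manifold ContDiff Topology
open Filter

noncomputable section

namespace Vale.Agent.P284.H573

open Vale.Agent.P272.K Vale.Agent.P284.H812 Vale.Agent.P284.H451 Vale.Agent.P284.H221

theorem l1Stmt : L1Stmt := by
  intro n R m X E _ _ _ _ p hp H _ _ _ v hv ψ hψ hh
  have h0 : ∀ z, At (chartAt (Cm n) (p (ψ z)) : Chart n X) (p (ψ z)) := fun z =>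
    ⟨chart_mem_atlas _ _, mem_chart_source _ _⟩
  have key : ∀ (z : Cm R) (e : Chart n X), At e (p (ψ z)) → VE p v ψ z = pull p v e ψ z :=
    fun z e he => pull_chart hv (h0 z) he (hp.continuousAt.comp hψ.continuousAt)
      (hh z _ (h0 z)).differentiableAt
  refine ⟨VE p v ψ, fun z => ?_, fun z e he => key z e he⟩
  have h1 : ∀ᶠ z' in 𝓝 z, p (ψ z') ∈ (chartAt (Cm n) (p (ψ z)) : Chart n X).source :=
    (hp.comp hψ).continuousAt.eventually_mem
      ((chartAt (Cm n) (p (ψ z)) : Chart n X).open_source.mem_nhds (h0 z).2)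
  refine ((pull_an hv hψ.continuousAt (h0 z) (hh z _ (h0 z))).congr ?_).differentiableAt
  filter_upwards [h1] with z' hz'
  exact (key z' _ ⟨(h0 z).1, hz'⟩).symm

theorem l2Stmt : L2Stmt := by
  intro n R m X E _ _ _ _ p hpc hp H _ _ _ v hv Z _ _ _ j hj
  refine ⟨NZ v hp j, hmet_NZ hv hpc.isLocalHomeomorph hp hj, ?_⟩
  intro c z e y hc he hy
  have h1 : c.symm (c z) = z := hc.left_inv
  exact NZ_eq hv hp (hj _) hc.1 hc.mem_target (by rw [h1, hy]) (by rw [h1]; exact he)

end Vale.Agent.P284.H573
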