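import Vale.Agent.P284.H573.HNF

/-!
# P284 (helper573): the entire function `V` and its first branch
-/

open scoped Manifold ContDiff Topology
open Filter

noncomputable section

namespace Vale.Agent.P284.H573

open Vale.Agent.P272.K Vale.Agent.P284.H812 Vale.Agent.P284.H451

variable {n R m : ℕ} {X E : Type} [TopologicalSpace X] [ChartedSpace (Cm n) X]
  [TopologicalSpace E] {p : E → X} {H : Type} [NormedAddCommGroup H] [InnerProductSpace ℂ H]
  {v : E → Chart n X → (Fin R → Cm n) → H}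

/-- the pull-back of `v` under `ψ : ℂᴿ → E`, a function on `ℂᴿ` -/
def VE (p : E → X) (v : E → Chart n X → (Fin R → Cm n) → H) (ψ : Cm R → E) (z : Cm R) : H :=
  pull p v (chartAt (Cm n) (p (ψ z))) ψ z

variable [IsManifold 𝓘(ℂ, Cm n) ω X]

lemma analyticAt_chart_map {g : Cm R → X} {z : Cm R} {e : Chart n X}
    (hh : ContMDiffAt 𝓘(ℂ, Cm R) 𝓘(ℂ, Cm n) ω g z) (he : At e (g z)) :
    AnalyticAt ℂ (fun z' => e (g z')) z := by
  have h1 : ContMDiffAt 𝓘(ℂ, Cm R) 𝓘(ℂ, Cm n) ω (fun z' => e (g z')) z :=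
    (chart_contMDiffAt (n := n) (X := X) he).comp z hh
  exact (contMDiffAt_iff_contDiffAt.1 h1).analyticAt

lemma VE_eq (hv : HForm n R m p H v) {ψ : Cm R → E} {z : Cm R}
    (hh : ContMDiffAt 𝓘(ℂ, Cm R) 𝓘(ℂ, Cm n) ω (fun z => p (ψ z)) z) {e : Chart n X}
    (he : At e (p (ψ z))) : VE p v ψ z = pull p v e ψ z := by
  have h0 : At (chartAt (Cm n) (p (ψ z)) : Chart n X) (p (ψ z)) :=
    ⟨chart_mem_atlas _ _, mem_chart_source _ _⟩
  exact pull_chart hv h0 he hh.continuousAt (analyticAt_chart_map hh h0).differentiableAt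

theorem VE_analyticAt (hv : HForm n R m p H v) {ψ : Cm R → E} (hψ : Continuous ψ)
    (hh : ContMDiff 𝓘(ℂ, Cm R) 𝓘(ℂ, Cm n) ω (fun z => p (ψ z))) (z : Cm R) :
    AnalyticAt ℂ (VE p v ψ) z := by
  set e : Chart n X := chartAt (Cm n) (p (ψ z)) with hedef
  have he : At e (p (ψ z)) := ⟨chart_mem_atlas _ _, mem_chart_source _ _⟩
  refine (pull_an hv hψ.continuousAt he (analyticAt_chart_map (hh z) he)).congr ?_
  have h1 : ∀ᶠ z' in 𝓝 z, p (ψ z') ∈ e.source :=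
    (hh z).continuousAt.eventually_mem (e.open_source.mem_nhds he.2)
  filter_upwards [h1] with z' hz'
  exact (VE_eq hv (hh z') ⟨he.1, hz'⟩).symm

theorem VE_differentiable (hv : HForm n R m p H v) {ψ : Cm R → E} (hψ : Continuous ψ)
    (hh : ContMDiff 𝓘(ℂ, Cm R) 𝓘(ℂ, Cm n) ω (fun z => p (ψ z))) :
    Differentiable ℂ (VE p v ψ) := fun z => (VE_analyticAt hv hψ hh z).differentiableAt

/-- `V` in the normal form -/
lemma VE_nf (hv : HForm n R m p H v) {ψ : Cm R → E} (hψ : Continuous ψ)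
    (hh : ContMDiff 𝓘(ℂ, Cm R) 𝓘(ℂ, Cm n) ω (fun z => p (ψ z))) {ζ : Cm R} {e : Chart n X}
    {b : Cm n → Cm R} {γ : Cm R → H} (h : IsNF m p v (ψ ζ) e b γ) :
    ∀ᶠ z in 𝓝 ζ, VE p v ψ z = (fderiv ℂ (fun z' => b (e (p (ψ z')))) z).det ^ m •
      γ (b (e (p (ψ z)))) := by
  have h1 : ∀ᶠ z' in 𝓝 ζ, p (ψ z') ∈ e.source :=
    (hh ζ).continuousAt.eventually_mem (e.open_source.mem_nhds h.mem.2)
  have h2 : ∀ᶠ z in 𝓝 ζ, AnalyticAt ℂ b (e (p (ψ z))) :=
    (analyticAt_chart_map (hh ζ) h.mem).continuousAt.eventually h.ban.eventually_analyticAt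
  filter_upwards [h1, h2, hψ.continuousAt.eventually h.nf] with z hz1 hz2 hz3
  rw [VE_eq hv (hh z) ⟨h.mem.1, hz1⟩]
  exact pull_nf hz3 hz2 (analyticAt_chart_map (hh z) ⟨h.mem.1, hz1⟩)

variable {Z : Type} [TopologicalSpace Z] [ChartedSpace (Cm R) Z] [IsManifold 𝓘(ℂ, Cm R) ω Z]

/-- The first branch: `j ∘ c⁻¹ ∘ f` and `p ∘ ψ` agree modulo the fibres of `b`. -/
theorem branch_NZ (hv : HForm n R m p H v) (hpl : IsLocalHomeomorph p)
    (hp : Function.Surjective p) {j : Z → X} (hj : ContMDiff 𝓘(ℂ, Cm R) 𝓘(ℂ, Cm n) ω j)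
    {ψ : Cm R → E} (hψ : Continuous ψ)
    (hh : ContMDiff 𝓘(ℂ, Cm R) 𝓘(ℂ, Cm n) ω (fun z => p (ψ z))) {ζ : Cm R} {e : Chart n X}
    {b : Cm n → Cm R} {γ : Cm R → H} (h₁ : IsNF m p v (ψ ζ) e b γ) {c : Chart R Z}
    (hc : c ∈ atlas (Cm R) Z) {f : Cm R → Cm R} (hfa : AnalyticAt ℂ f ζ) (hf : f ζ ∈ c.target)
    {y₂ : E} (hy₂ : p y₂ = j (c.symm (f ζ))) (h₂ : IsNF m p v y₂ e b γ)
    (heq : ∀ᶠ z in 𝓝 ζ, b (e (j (c.symm (f z)))) = b (e (p (ψ z)))) :
    IsBranch m (NZ v hp j) (VE p v ψ) ζ c f where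
  mem := hc
  tgt := hf
  an := hfa
  eq := by
    have hx : At c (c.symm (f ζ)) := At.of_target hc hf
    have hcx : c (c.symm (f ζ)) = f ζ := c.right_inv hf
    have h3 := NZ_nf hv hpl hp hj hx hy₂ h₂
    rw [hcx] at h3
    have h4 := VE_nf hv hψ hh h₁
    set g : Cm R → Cm R := fun z => b (e (j (c.symm z))) with hg
    have hga : AnalyticAt ℂ g (f ζ) := by
      refine AnalyticAt.fun_comp (g := b) (f := fun z => e (j (c.symm z))) ?_
        (analyticAt_map (hj _) hc hf (hy₂ ▸ h₂.mem))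
      rw [← hy₂]
      exact h₂.ban
    filter_upwards [hfa.continuousAt.eventually h3, h4, heq.eventually_nhds,
      hfa.continuousAt.eventually hga.eventually_analyticAt, hfa.eventually_analyticAt]
      with z a1 a2 a3 a4 a5
    have h5 : (fun z' => b (e (p (ψ z')))) =ᶠ[𝓝 z] fun z' => g (f z') := by
      filter_upwards [a3] with w hw
      exact hw.symm
    have h6 := fderiv_fun_comp (𝕜 := ℂ) (g := g) (f := f) z a4.differentiableAt
      a5.differentiableAt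
    have h7 : (fderiv ℂ (fun z' => b (e (p (ψ z')))) z).det =
        (fderiv ℂ g (f z)).det * (fderiv ℂ f z).det := by
      rw [h5.fderiv_eq, h6]
      exact LinearMap.det_comp _ _
    rw [a1, a2, h7, ← a3.self_of_nhds, norm_smul, norm_smul, mul_pow, mul_pow, mul_pow,
      norm_mul, norm_pow, norm_pow, mul_pow]
    ring

end Vale.Agent.P284.H573
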