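import Vale.Agent.P284.H573.HForm
import Mathlib.Topology.Covering.Basic
import Mathlib.Analysis.Analytic.Composition
import Mathlib.Analysis.Calculus.FDeriv.Analytic

/-!
# P284 (helper573): calculus of `HForm`s

Pull-backs of forms along maps to the covering, the weight `NZ` on `K_Z^m` of a map `j : Z → X`.
-/

open scoped Manifold ContDiff Topology
open Filter

noncomputable section

namespace Vale.Agent.P284.H573

open Vale.Agent.P272.K Vale.Agent.P284.H812 Vale.Agent.P284.H451

section basic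

variable {n R m : ℕ} {X E : Type} [TopologicalSpace X] [ChartedSpace (Cm n) X]
  [TopologicalSpace E] {p : E → X} {H : Type} [NormedAddCommGroup H] [InnerProductSpace ℂ H]
  {v : E → Chart n X → (Fin R → Cm n) → H}

/-- The pull-back of `v` under `ψ : ℂᴿ → E` (top forms on `ℂᴿ` are functions). -/
def pull (p : E → X) (v : E → Chart n X → (Fin R → Cm n) → H) (e : Chart n X) (ψ : Cm R → E)
    (z : Cm R) : H :=
  v (ψ z) e fun i => fderiv ℂ (fun z' => e (p (ψ z'))) z (Pi.single i 1)

lemma clm_sum {W : Type*} [NormedAddCommGroup W] [NormedSpace ℂ W] (T : Cm R →L[ℂ] W)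
    (u : Cm R) : T u = ∑ j, u j • T (Pi.single j 1) := by
  conv_lhs => rw [← Finset.univ_sum_single u]
  rw [map_sum]
  refine Finset.sum_congr rfl fun j _ => ?_
  rw [← map_smul]
  congr 1
  ext k
  by_cases h : k = j
  · subst h; simp
  · simp [h]

lemma det_matrix (L : Cm R →L[ℂ] Cm R) :
    (Matrix.of fun i j => L (Pi.single i 1) j).det = L.det := by
  rw [ContinuousLinearMap.det, ← Matrix.det_transpose]
  have : (LinearMap.toMatrix' (L : Cm R →ₗ[ℂ] Cm R)) =
      (Matrix.of fun i j => L (Pi.single i 1) j).transpose := by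
    ext i j
    rw [LinearMap.toMatrix'_apply]
    rfl
  rw [← this, LinearMap.det_toMatrix']

lemma HForm.lin (hv : HForm n R m p H v) {y : E} {e : Chart n X} (hy : At e (p y))
    (T : Cm R →L[ℂ] Cm n) (L : Cm R →L[ℂ] Cm R) :
    (v y e fun i => T (L (Pi.single i 1))) = L.det ^ m • v y e fun i => T (Pi.single i 1) := by
  rw [← det_matrix L, ← hv.det y e hy]
  congr 1
  funext i
  rw [clm_sum T (L (Pi.single i 1))]
  rfl

lemma pull_an (hv : HForm n R m p H v) {e : Chart n X} {ψ : Cm R → E} {z : Cm R}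
    (hψ : ContinuousAt ψ z) (he : At e (p (ψ z)))
    (ha : AnalyticAt ℂ (fun z' => e (p (ψ z'))) z) : AnalyticAt ℂ (pull p v e ψ) z := by
  obtain ⟨F, hF, hv'⟩ := hv.hol (ψ z) e he
  have h1 : AnalyticAt ℂ (fun z' => F (e (p (ψ z')),
      fun i => fderiv ℂ (fun z' => e (p (ψ z'))) z' (Pi.single i 1))) z := by
    refine AnalyticAt.fun_comp (hF _) (ha.prod (AnalyticAt.pi fun i => ?_))
    exact (ContinuousLinearMap.apply ℂ (Cm n) (Pi.single i (1 : ℂ) : Cm R)).analyticAt _ |>.fun_comp
      ha.fderiv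
  refine h1.congr ?_
  filter_upwards [hψ.eventually hv'] with z' hz'
  exact (hz' _).symm

variable [IsManifold 𝓘(ℂ, Cm n) ω X]

/-- change of the chart of `X` for the derivative of a map -/
lemma fderiv_chart {S : Type*} [NormedAddCommGroup S] [NormedSpace ℂ S] {g : S → X} {z : S}
    {e e' : Chart n X} (he : At e (g z)) (he' : At e' (g z)) (hc : ContinuousAt g z)
    (hd : DifferentiableAt ℂ (fun z' => e (g z')) z) (u : S) :
    fderiv ℂ (fun z' => e' (g z')) z u =
      fderiv ℂ (fun z => e' (e.symm z)) (e (g z)) (fderiv ℂ (fun z' => e (g z')) z u) := by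
  have h1 : (fun z' => e' (g z')) =ᶠ[𝓝 z] fun z' => e' (e.symm (e (g z'))) := by
    filter_upwards [hc.eventually (e.open_source.mem_nhds he.2)] with z' hz'
    rw [e.left_inv hz']
  rw [h1.fderiv_eq]
  have h2 := fderiv_fun_comp (𝕜 := ℂ) (g := fun z => e' (e.symm z)) (f := fun z' => e (g z')) z
    (transition_differentiableAt he he') hd
  rw [h2]
  rfl

lemma differentiableAt_chart {S : Type*} [NormedAddCommGroup S] [NormedSpace ℂ S] {g : S → X}
    {z : S} {e e' : Chart n X} (he : At e (g z)) (he' : At e' (g z)) (hc : ContinuousAt g z)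
    (hd : DifferentiableAt ℂ (fun z' => e (g z')) z) :
    DifferentiableAt ℂ (fun z' => e' (g z')) z := by
  have h1 : (fun z' => e' (g z')) =ᶠ[𝓝 z] fun z' => e' (e.symm (e (g z'))) := by
    filter_upwards [hc.eventually (e.open_source.mem_nhds he.2)] with z' hz'
    rw [e.left_inv hz']
  refine DifferentiableAt.congr_of_eventuallyEq ?_ h1
  exact DifferentiableAt.comp z (g := fun z => e' (e.symm z)) (transition_differentiableAt he he') hd

lemma analyticAt_chart {S : Type*} [NormedAddCommGroup S] [NormedSpace ℂ S] {g : S → X}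
    {z : S} {e e' : Chart n X} (he : At e (g z)) (he' : At e' (g z)) (hc : ContinuousAt g z)
    (hd : AnalyticAt ℂ (fun z' => e (g z')) z) : AnalyticAt ℂ (fun z' => e' (g z')) z := by
  have h1 : (fun z' => e' (g z')) =ᶠ[𝓝 z] fun z' => e' (e.symm (e (g z'))) := by
    filter_upwards [hc.eventually (e.open_source.mem_nhds he.2)] with z' hz'
    rw [e.left_inv hz']
  refine AnalyticAt.congr ?_ h1.symm
  exact AnalyticAt.fun_comp (g := fun z => e' (e.symm z)) (transition he he').analyticAt hd

/-- the value of `v` on the vectors `D(e∘g)(z) (w i)` does not depend on the chart `e` -/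
lemma HForm.chart_indep (hv : HForm n R m p H v) {S : Type*} [NormedAddCommGroup S]
    [NormedSpace ℂ S] {g : S → X} {z : S} {y : E} (hy : p y = g z)
    {e e' : Chart n X} (he : At e (g z)) (he' : At e' (g z)) (hc : ContinuousAt g z)
    (hd : DifferentiableAt ℂ (fun z' => e (g z')) z) (w : Fin R → S) :
    (v y e fun i => fderiv ℂ (fun z' => e (g z')) z (w i)) =
      v y e' fun i => fderiv ℂ (fun z' => e' (g z')) z (w i) := by
  rw [hv.change y e e' (hy ▸ he) (hy ▸ he')]
  congr 1
  funext i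
  rw [fderiv_chart he he' hc hd, hy]

lemma pull_chart (hv : HForm n R m p H v) {e e' : Chart n X} {ψ : Cm R → E} {z : Cm R}
    (he : At e (p (ψ z))) (he' : At e' (p (ψ z))) (hc : ContinuousAt (fun z => p (ψ z)) z)
    (hd : DifferentiableAt ℂ (fun z' => e (p (ψ z'))) z) : pull p v e ψ z = pull p v e' ψ z :=
  hv.chart_indep (g := fun z => p (ψ z)) rfl he he' hc hd _

end basic

section NZ

variable {n R m : ℕ} {X E : Type} [TopologicalSpace X] [ChartedSpace (Cm n) X]
  [TopologicalSpace E] {p : E → X} {H : Type} [NormedAddCommGroup H] [InnerProductSpace ℂ H]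
  {v : E → Chart n X → (Fin R → Cm n) → H}
  {Z : Type} [TopologicalSpace Z] [ChartedSpace (Cm R) Z]

/-- the weight on `K_Z^m` induced by `v` and `j : Z → X` -/
def NZ (v : E → Chart n X → (Fin R → Cm n) → H) (hp : Function.Surjective p) (j : Z → X)
    (c : Chart R Z) (z : Cm R) : ℝ :=
  ‖v (Function.surjInv hp (j (c.symm z))) (chartAt (Cm n) (j (c.symm z))) fun i =>
    fderiv ℂ (fun z' => chartAt (Cm n) (j (c.symm z)) (j (c.symm z'))) z (Pi.single i 1)‖ ^ 2

variable [IsManifold 𝓘(ℂ, Cm n) ω X] [IsManifold 𝓘(ℂ, Cm R) ω Z]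

/-- a holomorphic map in charts -/
lemma analyticAt_map {j : Z → X} {c : Chart R Z} {z : Cm R} {e : Chart n X}
    (hj : ContMDiffAt 𝓘(ℂ, Cm R) 𝓘(ℂ, Cm n) ω j (c.symm z)) (hc : c ∈ atlas (Cm R) Z)
    (hz : z ∈ c.target) (he : At e (j (c.symm z))) :
    AnalyticAt ℂ (fun z' => e (j (c.symm z'))) z := by
  have h1 : ContMDiffAt 𝓘(ℂ, Cm R) 𝓘(ℂ, Cm n) ω (fun z' => e (j (c.symm z'))) z := by
    have h2 := (chart_contMDiffAt (n := n) (X := X) he).comp (c.symm z) hj
    exact h2.comp z (chart_symm_contMDiffAt hc hz)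
  exact (contMDiffAt_iff_contDiffAt.1 h1).analyticAt

omit [IsManifold 𝓘(ℂ, Cm n) ω X] [IsManifold 𝓘(ℂ, Cm R) ω Z] in
lemma continuousAt_map {j : Z → X} {c : Chart R Z} {z : Cm R}
    (hj : ContMDiffAt 𝓘(ℂ, Cm R) 𝓘(ℂ, Cm n) ω j (c.symm z)) (hz : z ∈ c.target) :
    ContinuousAt (fun z' => j (c.symm z')) z :=
  ContinuousAt.comp (f := c.symm) hj.continuousAt (c.continuousAt_symm hz)

lemma NZ_eq (hv : HForm n R m p H v) (hp : Function.Surjective p) {j : Z → X} {c : Chart R Z}
    {z : Cm R} (hj : ContMDiffAt 𝓘(ℂ, Cm R) 𝓘(ℂ, Cm n) ω j (c.symm z)) (hc : c ∈ atlas (Cm R) Z)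
    (hz : z ∈ c.target) {y : E} {e : Chart n X} (hy : p y = j (c.symm z))
    (he : At e (j (c.symm z))) :
    NZ v hp j c z = ‖v y e fun i => fderiv ℂ (fun z' => e (j (c.symm z'))) z (Pi.single i 1)‖ ^ 2 := by
  have h0 : At (chartAt (Cm n) (j (c.symm z)) : Chart n X) (j (c.symm z)) :=
    ⟨chart_mem_atlas _ _, mem_chart_source _ _⟩
  have h1 : p (Function.surjInv hp (j (c.symm z))) = j (c.symm z) := Function.surjInv_eq hp _
  have h2 := hv.chart_indep (g := fun z' => j (c.symm z')) (z := z)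
    (y := Function.surjInv hp (j (c.symm z))) h1 h0 he
    (continuousAt_map hj hz) (analyticAt_map hj hc hz h0).differentiableAt
    (fun i => (Pi.single i 1 : Cm R))
  rw [NZ, h2, hv.inv _ y e (by rw [h1]; exact he) (h1.trans hy.symm)]

lemma jacM_det {c c' : Chart R Z} {x : Z} (h : At c x) (h' : At c' x) :
    (jacM c c' x).det = (fderiv ℂ (fun z => c' (c.symm z)) (c x)).det := by
  have h1 : (jacM c c' x) = LinearMap.toMatrix'
      (fderiv ℂ (fun z => c' (c.symm z)) (c x) : Cm R →ₗ[ℂ] Cm R) := by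
    ext i k
    rw [LinearMap.toMatrix'_apply, jacM_eq, jmat_apply (transition_differentiableAt h h')]
    rfl
  rw [h1, LinearMap.det_toMatrix']

theorem hmet_NZ (hv : HForm n R m p H v) (hpl : IsLocalHomeomorph p)
    (hp : Function.Surjective p) {j : Z → X} (hj : ContMDiff 𝓘(ℂ, Cm R) 𝓘(ℂ, Cm n) ω j) :
    HMet R m Z H (NZ v hp j) where
  loc := by
    intro c x hx
    obtain ⟨y₀, hy₀⟩ := hp (j x)
    set e : Chart n X := chartAt (Cm n) (j x) with he'
    have he : At e (j x) := ⟨chart_mem_atlas _ _, mem_chart_source _ _⟩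
    obtain ⟨φ, hφ, hφp⟩ := hpl y₀
    set ψ : Cm R → E := fun z => φ.symm (j (c.symm z)) with hψ
    have hx' : c.symm (c x) = x := hx.left_inv
    have hjx : j x ∈ φ.target := by
      rw [← hy₀, hφp]; exact φ.map_source hφ
    have hc1 : ContinuousAt (fun z => j (c.symm z)) (c x) :=
      continuousAt_map (hj _) hx.mem_target
    have hψc : ContinuousAt ψ (c x) := by
      refine ContinuousAt.comp (g := φ.symm) (f := fun z => j (c.symm z)) ?_ hc1
      rw [hx']
      exact φ.continuousAt_symm hjx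
    have hev : ∀ᶠ z in 𝓝 (c x), z ∈ c.target ∧ j (c.symm z) ∈ φ.target ∧
        At e (j (c.symm z)) := by
      have h1 : ∀ᶠ z in 𝓝 (c x), j (c.symm z) ∈ φ.target :=
        hc1.eventually_mem (φ.open_target.mem_nhds (by simpa only [hx'] using hjx))
      have h2 : ∀ᶠ z in 𝓝 (c x), j (c.symm z) ∈ e.source :=
        hc1.eventually_mem (e.open_source.mem_nhds (by simpa only [hx'] using he.2))
      filter_upwards [hx.nhds_target, h1, h2] with z hz hz1 hz2
      exact ⟨hz, hz1, he.1, hz2⟩
    have hpψ : (fun z => p (ψ z)) =ᶠ[𝓝 (c x)] fun z => j (c.symm z) := by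
      filter_upwards [hev] with z hz
      rw [hψ, hφp]
      exact φ.right_inv hz.2.1
    have hpx : p (ψ (c x)) = j x := by rw [hpψ.eq_of_nhds, hx']
    refine ⟨pull p v e ψ, pull_an hv hψc (by rw [hpx]; exact he) ?_, ?_⟩
    · refine (analyticAt_map (z := c x) (hj _) hx.1 hx.mem_target
        (by rw [hx']; exact he)).congr ?_
      filter_upwards [hpψ] with z hz
      rw [hz]
    · filter_upwards [hev, hpψ.eventuallyEq_nhds] with z hz hz'
      rw [NZ_eq hv hp (hj _) hx.1 hz.1 (y := ψ z) hz'.eq_of_nhds hz.2.2, pull]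
      have h3 : (fun z' => e (p (ψ z'))) =ᶠ[𝓝 z] fun z' => e (j (c.symm z')) := by
        filter_upwards [hz'] with w hw
        rw [hw]
      rw [h3.fderiv_eq]
  change := by
    intro c c' x hx hx'
    obtain ⟨y, hy⟩ := hp (j x)
    set e : Chart n X := chartAt (Cm n) (j x) with he'
    have he : At e (j x) := ⟨chart_mem_atlas _ _, mem_chart_source _ _⟩
    have h1 : c.symm (c x) = x := hx.left_inv
    have h1' : c'.symm (c' x) = x := hx'.left_inv
    rw [NZ_eq hv hp (hj _) hx.1 hx.mem_target (y := y) (e := e) (by rw [h1, hy])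
      (by rw [h1]; exact he), NZ_eq hv hp (hj _) hx'.1 hx'.mem_target (y := y) (e := e)
      (by rw [h1', hy]) (by rw [h1']; exact he), jacM_det hx hx']
    have h2 : (fun z' => e (j (c.symm z'))) =ᶠ[𝓝 (c x)]
        fun z' => e (j (c'.symm (c' (c.symm z')))) := by
      filter_upwards [hx.nhds_at hx'] with z hz
      rw [hz.2.2.left_inv]
    have h3 : fderiv ℂ (fun z' => e (j (c.symm z'))) (c x) =
        (fderiv ℂ (fun z' => e (j (c'.symm z'))) (c' x)).comp
          (fderiv ℂ (fun z => c' (c.symm z)) (c x)) := by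
      rw [h2.fderiv_eq]
      have h4 := fderiv_fun_comp (𝕜 := ℂ) (g := fun z => e (j (c'.symm z)))
        (f := fun z => c' (c.symm z)) (c x) (by
          rw [h1]
          exact (analyticAt_map (hj _) hx'.1 hx'.mem_target
            (by rw [h1']; exact he)).differentiableAt) (transition_differentiableAt hx hx')
      rw [h4, h1]
    have h5 : (v y e fun i => fderiv ℂ (fun z' => e (j (c.symm z'))) (c x) (Pi.single i 1)) =
        (fderiv ℂ (fun z => c' (c.symm z)) (c x)).det ^ m •
          v y e fun i => fderiv ℂ (fun z' => e (j (c'.symm z'))) (c' x) (Pi.single i 1) := by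
      rw [← hv.lin (by rw [hy]; exact he), h3]
      rfl
    rw [h5, norm_smul, norm_pow, mul_pow, mul_comm]
    ring

end NZ

end Vale.Agent.P284.H573
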